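import Vale.Agent.P069.AMUC
import Vale.Agent.P069.NotAUC

namespace Vale.Agent.Results.P069.AMUCNotAUC

open Vale.Agent.P069

/-- There is a separable reflexive Banach space with an equivalent AMUC norm and no
equivalent AUC norm. -/
theorem result :
    ∃ (X : Type) (_ : NormedAddCommGroup X) (_ : NormedSpace ℝ X) (_ : CompleteSpace X),
      ¬ FiniteDimensional ℝ X ∧ TopologicalSpace.SeparableSpace X ∧
      Function.Surjective (NormedSpace.inclusionInDoubleDual ℝ X) ∧
      (∃ N : Seminorm ℝ X, IsEquivNorm N ∧ IsAMUC N) ∧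
      ∀ N : Seminorm ℝ X, IsEquivNorm N → ¬ IsAUC N :=
  ⟨DualJT, inferInstance, inferInstance, inferInstance, not_finiteDimensional_dual,
    separableSpace_dual, dual_reflexive,
    ⟨normSeminorm ℝ DualJT, ⟨1, 1, one_pos, one_pos, fun x => by simp⟩, isAMUC_norm⟩,
    not_isAUC⟩

end Vale.Agent.Results.P069.AMUCNotAUC
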